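import Mathlib

/-!
# P344: gate elimination for linear circuits (abstract part)
-/

namespace Vale.Agent.LinCirc

open Finset

variable {ι : Type*} [Fintype ι] [DecidableEq ι]

/-- the coefficient vectors available before gate `t` -/
def Av (a : ℕ → ι → ℂ) (t : ℕ) (u : ι → ℂ) : Prop :=
  u = 0 ∨ (∃ i, u = Pi.single i 1) ∨ ∃ s < t, u = a s

/-- every gate is a linear combination of two available vectors -/
def Chain (a : ℕ → ι → ℂ) (L : ℕ) : Prop :=
  ∀ t < L, ∃ u w : ι → ℂ, ∃ α β : ℂ, Av a t u ∧ Av a t w ∧ a t = fun i => α * u i + β * w i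

/-- gate `t` is redundant on the set `S` of live inputs -/
def Dead (a : ℕ → ι → ℂ) (S : Finset ι) (t : ℕ) : Prop :=
  ∃ c : ℂ, ∃ u, Av a t u ∧ ∀ i ∈ S, a t i = c * u i

theorem Av.mono {a : ℕ → ι → ℂ} {t t' : ℕ} {u : ι → ℂ} (h : Av a t u) (htt : t ≤ t') :
    Av a t' u := by
  rcases h with h | h | ⟨s, hs, h⟩
  · exact Or.inl h
  · exact Or.inr (Or.inl h)
  · exact Or.inr (Or.inr ⟨s, by omega, h⟩)

theorem Dead.mono {a : ℕ → ι → ℂ} {S S' : Finset ι} {t : ℕ} (h : Dead a S t) (hS : S' ⊆ S) :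
    Dead a S' t := by
  obtain ⟨c, u, h1, h2⟩ := h
  exact ⟨c, u, h1, fun i hi => h2 i (hS hi)⟩

/-- every available vector is, on `S`, a multiple of a unit vector or of a live gate -/
theorem reduce {a : ℕ → ι → ℂ} {S : Finset ι} (hS : S.Nonempty) (t : ℕ) :
    ∀ u, Av a t u → ∃ c : ℂ, (∃ l ∈ S, ∀ i ∈ S, u i = c * (Pi.single l 1 : ι → ℂ) i) ∨
      ∃ s < t, ¬ Dead a S s ∧ ∀ i ∈ S, u i = c * a s i := by
  classical
  induction t using Nat.strong_induction_on with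
  | _ t ih =>
    intro u hu
    obtain ⟨l0, hl0⟩ := hS
    rcases hu with rfl | ⟨l, rfl⟩ | ⟨s, hs, rfl⟩
    · exact ⟨0, Or.inl ⟨l0, hl0, fun i _ => by simp⟩⟩
    · by_cases hl : l ∈ S
      · exact ⟨1, Or.inl ⟨l, hl, fun i _ => by simp⟩⟩
      · refine ⟨0, Or.inl ⟨l0, hl0, fun i hi => ?_⟩⟩
        rw [zero_mul, Pi.single_eq_of_ne]
        rintro rfl
        exact hl hi
    · by_cases hd : Dead a S s
      · obtain ⟨c, u, h1, h2⟩ := hd
        obtain ⟨c', h3⟩ := ih s hs u h1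
        refine ⟨c * c', ?_⟩
        rcases h3 with ⟨l, hl, h3⟩ | ⟨s', hs', h4, h3⟩
        · exact Or.inl ⟨l, hl, fun i hi => by rw [h2 i hi, h3 i hi, mul_assoc]⟩
        · exact Or.inr ⟨s', by omega, h4, fun i hi => by rw [h2 i hi, h3 i hi, mul_assoc]⟩
      · exact ⟨1, Or.inr ⟨s, hs, hd, fun i _ => by simp⟩⟩

open Classical in
/-- the number of live gates -/
noncomputable def NN (a : ℕ → ι → ℂ) (L : ℕ) (S : Finset ι) : ℕ :=
  ((range L).filter fun t => ¬ Dead a S t).card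

/-- the elimination step -/
theorem elim {a : ℕ → ι → ℂ} {L : ℕ} (ha : Chain a L) {S : Finset ι} (hS : 2 ≤ S.card)
    (hout : ∀ i ∈ S, ∀ j ∈ S, i ≠ j → ∀ p q : ℂ, p ≠ 0 → q ≠ 0 →
      ∃ r, Av a L r ∧ (∀ l, r l ≠ 0) ∧ r i * q ≠ r j * p) :
    ∃ l ∈ S, NN a L (S.erase l) + 2 ≤ NN a L S := by
  classical
  have hne : S.Nonempty := card_pos.1 (by omega)
  -- a vector with full support is not a multiple of a unit vector
  have hfull : ∀ r : ι → ℂ, (∀ l, r l ≠ 0) → ∀ c : ℂ,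
      ¬ ∃ l ∈ S, ∀ i ∈ S, r i = c * (Pi.single l 1 : ι → ℂ) i := by
    rintro r hr c ⟨l, hl, h⟩
    obtain ⟨i, hi, hil⟩ := exists_mem_ne (by omega : 1 < S.card) l
    have := h i hi
    rw [Pi.single_eq_of_ne hil, mul_zero] at this
    exact hr i this
  -- there is a live gate
  have hlive : ∃ t, t < L ∧ ¬ Dead a S t := by
    obtain ⟨i, hi, j, hj, hij⟩ := one_lt_card.1 (by omega : 1 < S.card)
    obtain ⟨r, h1, h2, -⟩ := hout i hi j hj hij 1 1 one_ne_zero one_ne_zero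
    obtain ⟨c, h3 | ⟨s, hs, h4, -⟩⟩ := reduce hne L r h1
    · exact absurd h3 (hfull r h2 c)
    · exact ⟨s, hs, h4⟩
  obtain ⟨t, ⟨htL, htl⟩, htmin⟩ : ∃ t, (t < L ∧ ¬ Dead a S t) ∧
      ∀ s < t, ¬ (s < L ∧ ¬ Dead a S s) :=
    ⟨Nat.find hlive, Nat.find_spec hlive, fun s hs => Nat.find_min hlive hs⟩
  obtain ⟨u, w, α, β, hu, hw, hat⟩ := ha t htL
  obtain ⟨c, hc⟩ := reduce hne t u hu
  obtain ⟨c', hc'⟩ := reduce hne t w hw
  have hc1 : ∃ l ∈ S, ∀ i ∈ S, u i = c * (Pi.single l 1 : ι → ℂ) i := by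
    rcases hc with hc | ⟨s, hs, h4, -⟩
    · exact hc
    · exact absurd ⟨by omega, h4⟩ (htmin s hs)
  have hc2 : ∃ l ∈ S, ∀ i ∈ S, w i = c' * (Pi.single l 1 : ι → ℂ) i := by
    rcases hc' with hc | ⟨s, hs, h4, -⟩
    · exact hc
    · exact absurd ⟨by omega, h4⟩ (htmin s hs)
  obtain ⟨i, hi, hui⟩ := hc1
  obtain ⟨j, hj, hwj⟩ := hc2
  obtain ⟨p, hp⟩ : ∃ p, p = α * c := ⟨_, rfl⟩
  obtain ⟨q, hq⟩ : ∃ q, q = β * c' := ⟨_, rfl⟩
  have hatS : ∀ l ∈ S, a t l = p * (Pi.single i 1 : ι → ℂ) l + q * (Pi.single j 1 : ι → ℂ) l := by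
    intro l hl
    rw [hat, hp, hq]
    simp only
    rw [hui l hl, hwj l hl]
    ring
  have avi : ∀ i t, Av a t (Pi.single i 1) := fun i t => Or.inr (Or.inl ⟨i, rfl⟩)
  have hp0 : p ≠ 0 := by
    intro h
    refine htl ⟨q, Pi.single j 1, avi j t, fun l hl => ?_⟩
    rw [hatS l hl, h]
    ring
  have hq0 : q ≠ 0 := by
    intro h
    refine htl ⟨p, Pi.single i 1, avi i t, fun l hl => ?_⟩
    rw [hatS l hl, h]
    ring
  have hij : i ≠ j := by
    rintro rfl
    refine htl ⟨p + q, Pi.single i 1, avi i t, fun l hl => ?_⟩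
    rw [hatS l hl]
    ring
  have hati : a t i = p := by
    rw [hatS i hi, Pi.single_eq_same, Pi.single_eq_of_ne hij]
    ring
  have hatj : a t j = q := by
    rw [hatS j hj, Pi.single_eq_same, Pi.single_eq_of_ne hij.symm]
    ring
  -- the second gate
  have hex : ∃ s, s < L ∧ ¬ Dead a S s ∧ a s i * q ≠ a s j * p := by
    obtain ⟨r, h1, h2, h3⟩ := hout i hi j hj hij p q hp0 hq0
    obtain ⟨c, h4 | ⟨s, hs, h4, h5⟩⟩ := reduce hne L r h1
    · exact absurd h4 (hfull r h2 c)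
    · refine ⟨s, hs, h4, fun h6 => h3 ?_⟩
      rw [h5 i hi, h5 j hj, mul_assoc, h6, mul_assoc]
  obtain ⟨s, ⟨hsL, hsl, hsne⟩, hsmin⟩ : ∃ s, (s < L ∧ ¬ Dead a S s ∧ a s i * q ≠ a s j * p) ∧
      ∀ s' < s, ¬ (s' < L ∧ ¬ Dead a S s' ∧ a s' i * q ≠ a s' j * p) :=
    ⟨Nat.find hex, Nat.find_spec hex, fun s hs => Nat.find_min hex hs⟩
  have hst : s ≠ t := by
    rintro rfl
    apply hsne
    rw [hati, hatj, mul_comm]
  obtain ⟨u', w', α', β', hu', hw', has⟩ := ha s hsL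
  -- an operand which is not a multiple of `e_i` or `e_j` satisfies the relation
  have hop : ∀ v, Av a s v → (v i * q = v j * p) ∨
      (∃ c : ℂ, ∃ l ∈ S, (l = i ∨ l = j) ∧ ∀ x ∈ S, v x = c * (Pi.single l 1 : ι → ℂ) x) := by
    intro v hv
    obtain ⟨d, h4 | ⟨s', hs', h4, h5⟩⟩ := reduce hne s v hv
    · obtain ⟨l, hl, h5⟩ := h4
      by_cases hlij : l = i ∨ l = j
      · exact Or.inr ⟨d, l, hl, hlij, h5⟩
      · push Not at hlij
        left
        rw [h5 i hi, h5 j hj, Pi.single_eq_of_ne hlij.1.symm, Pi.single_eq_of_ne hlij.2.symm]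
        ring
    · left
      by_contra h6
      refine hsmin s' hs' ⟨by omega, h4, fun h7 => h6 ?_⟩
      rw [h5 i hi, h5 j hj, mul_assoc, h7, mul_assoc]
  -- some operand is a multiple of `e_l`, `l = i` or `l = j`
  have hl : ∃ l ∈ S, (l = i ∨ l = j) ∧ Dead a (S.erase l) s := by
    rcases hop u' hu' with h1 | ⟨d, l, hl, hlij, h1⟩
    · rcases hop w' hw' with h2 | ⟨d, l, hl, hlij, h2⟩
      · exfalso
        apply hsne
        rw [has]
        simp only
        calc (α' * u' i + β' * w' i) * q = α' * (u' i * q) + β' * (w' i * q) := by ring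
          _ = α' * (u' j * p) + β' * (w' j * p) := by rw [h1, h2]
          _ = (α' * u' j + β' * w' j) * p := by ring
      · refine ⟨l, hl, hlij, α', u', hu', fun x hx => ?_⟩
        rw [mem_erase] at hx
        rw [has]
        simp only
        rw [h2 x hx.2, Pi.single_eq_of_ne hx.1]
        ring
    · refine ⟨l, hl, hlij, β', w', hw', fun x hx => ?_⟩
      rw [mem_erase] at hx
      rw [has]
      simp only
      rw [h1 x hx.2, Pi.single_eq_of_ne hx.1]
      ring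
  obtain ⟨l, hlS, hlij, hdead⟩ := hl
  refine ⟨l, hlS, ?_⟩
  have hdt : Dead a (S.erase l) t := by
    rcases hlij with rfl | rfl
    · refine ⟨q, Pi.single j 1, avi j t, fun x hx => ?_⟩
      rw [mem_erase] at hx
      rw [hatS x hx.2, Pi.single_eq_of_ne hx.1]
      ring
    · refine ⟨p, Pi.single i 1, avi i t, fun x hx => ?_⟩
      rw [mem_erase] at hx
      rw [hatS x hx.2, Pi.single_eq_of_ne hx.1]
      ring
  unfold NN
  have hsub : (range L).filter (fun t => ¬ Dead a (S.erase l) t) ⊆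
      (((range L).filter fun t => ¬ Dead a S t).erase s).erase t := by
    intro x hx
    rw [mem_filter] at hx
    rw [mem_erase, mem_erase, mem_filter]
    refine ⟨?_, ?_, hx.1, fun h => hx.2 (h.mono (erase_subset _ _))⟩
    · rintro rfl
      exact hx.2 hdt
    · rintro rfl
      exact hx.2 hdead
  have h1 := card_le_card hsub
  have hs1 : s ∈ (range L).filter fun t => ¬ Dead a S t := by
    rw [mem_filter, mem_range]
    exact ⟨hsL, hsl⟩
  have ht1 : t ∈ ((range L).filter fun t => ¬ Dead a S t).erase s := by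
    rw [mem_erase, mem_filter, mem_range]
    exact ⟨hst.symm, htL, htl⟩
  rw [card_erase_of_mem ht1, card_erase_of_mem hs1] at h1
  have h2 : 1 ≤ (((range L).filter fun t => ¬ Dead a S t).erase s).card := card_pos.2 ⟨t, ht1⟩
  rw [card_erase_of_mem hs1] at h2
  omega

/-- iteration of the elimination step down to `k ≥ 1` live inputs -/
theorem elim_iter {a : ℕ → ι → ℂ} {L : ℕ} (ha : Chain a L)
    (hout : ∀ i j : ι, i ≠ j → ∀ p q : ℂ, p ≠ 0 → q ≠ 0 →
      ∃ r, Av a L r ∧ (∀ l, r l ≠ 0) ∧ r i * q ≠ r j * p) (d : ℕ) :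
    d + 1 ≤ Fintype.card ι →
      ∃ S : Finset ι, S.card + d = Fintype.card ι ∧ NN a L S + 2 * d ≤ L := by
  classical
  induction d with
  | zero =>
    intro _
    refine ⟨univ, by simp, ?_⟩
    unfold NN
    simpa using (card_filter_le (range L) _)
  | succ d ih =>
    intro hd
    obtain ⟨S, h1, h2⟩ := ih (by omega)
    obtain ⟨l, hl, h3⟩ := elim ha (S := S) (by omega) (fun i _ j _ hij => hout i j hij)
    refine ⟨S.erase l, ?_, by omega⟩
    rw [card_erase_of_mem hl]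
    omega

end Vale.Agent.LinCirc
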