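import Vale.Agent.LinCirc.Core

/-!
# P344: counting the gates which remain after the elimination
-/

namespace Vale.Agent.LinCirc

open Finset

variable {ι : Type*} [Fintype ι] [DecidableEq ι]

/-- every gate merges at most two classes of inputs -/
theorem colors {a : ℕ → ι → ℂ} {L : ℕ} (ha : Chain a L) (S : Finset ι) (t : ℕ) : t ≤ L →
    ∃ col : ι → ι, (∀ u, Av a t u → ∀ i ∈ S, ∀ j ∈ S, u i ≠ 0 → u j ≠ 0 → col i = col j) ∧
      S.card ≤ (S.image col).card + NN a t S := by
  classical
  induction t with
  | zero =>
    intro _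
    refine ⟨id, ?_, by simp⟩
    rintro u (rfl | ⟨l, rfl⟩ | ⟨s, hs, rfl⟩) i _ j _ hi hj
    · exact absurd rfl hi
    · have h1 : i = l := by
        by_contra h
        exact hi (Pi.single_eq_of_ne h _)
      have h2 : j = l := by
        by_contra h
        exact hj (Pi.single_eq_of_ne h _)
      rw [h1, h2]
    · omega
  | succ t ih =>
    intro ht
    obtain ⟨col, h1, h2⟩ := ih (by omega)
    have hNN : NN a t S ≤ NN a (t + 1) S := by
      unfold NN
      refine card_le_card (filter_subset_filter _ ?_)
      intro x hx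
      rw [mem_range] at hx ⊢
      omega
    have hsplit : ∀ u, Av a (t + 1) u → Av a t u ∨ u = a t := by
      rintro u (h | h | ⟨s, hs, h⟩)
      · exact Or.inl (Or.inl h)
      · exact Or.inl (Or.inr (Or.inl h))
      · rcases Nat.lt_succ_iff_lt_or_eq.1 hs with h3 | h3
        · exact Or.inl (Or.inr (Or.inr ⟨s, h3, h⟩))
        · rw [h3] at h
          exact Or.inr h
    by_cases hd : Dead a S t
    · refine ⟨col, ?_, by omega⟩
      intro u hu i hi j hj hui huj
      rcases hsplit u hu with h3 | rfl
      · exact h1 u h3 i hi j hj hui huj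
      · obtain ⟨c, v, hv, h4⟩ := hd
        refine h1 v hv i hi j hj ?_ ?_
        · intro h
          rw [h4 i hi, h, mul_zero] at hui
          exact hui rfl
        · intro h
          rw [h4 j hj, h, mul_zero] at huj
          exact huj rfl
    · obtain ⟨u, w, α, β, hu, hw, hat⟩ := ha t (by omega)
      have hu0 : ∃ i ∈ S, u i ≠ 0 := by
        by_contra h
        push Not at h
        refine hd ⟨β, w, hw, fun i hi => ?_⟩
        rw [hat]
        simp only
        rw [h i hi]
        ring
      have hw0 : ∃ i ∈ S, w i ≠ 0 := by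
        by_contra h
        push Not at h
        refine hd ⟨α, u, hu, fun i hi => ?_⟩
        rw [hat]
        simp only
        rw [h i hi]
        ring
      obtain ⟨i1, hi1, hu1⟩ := hu0
      obtain ⟨i2, hi2, hw2⟩ := hw0
      refine ⟨fun x => if col x = col i1 then col i2 else col x, ?_, ?_⟩
      · intro v hv i hi j hj hvi hvj
        rcases hsplit v hv with h3 | rfl
        · have := h1 v h3 i hi j hj hvi hvj
          simp only [this]
        · have key : ∀ x ∈ S, a t x ≠ 0 →
              (if col x = col i1 then col i2 else col x) = col i2 := by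
            intro x hx hax
            by_cases hux : u x = 0
            · have hwx : w x ≠ 0 := by
                intro h
                apply hax
                rw [hat]
                simp only
                rw [hux, h]
                ring
              have := h1 w hw x hx i2 hi2 hwx hw2
              rw [this]
              split_ifs <;> rfl
            · rw [if_pos (h1 u hu x hx i1 hi1 hux hu1)]
          exact (key i hi hvi).trans (key j hj hvj).symm
      · have h3 : S.image col ⊆
            insert (col i1) (S.image fun x => if col x = col i1 then col i2 else col x) := by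
          intro b hb
          obtain ⟨x, hx, rfl⟩ := mem_image.1 hb
          rw [mem_insert]
          by_cases hx1 : col x = col i1
          · exact Or.inl hx1
          · right
            rw [mem_image]
            exact ⟨x, hx, by rw [if_neg hx1]⟩
        have h4 := (card_le_card h3).trans (card_insert_le _ _)
        have h5 : NN a (t + 1) S = NN a t S + 1 := by
          unfold NN
          rw [range_add_one, filter_insert, if_pos hd, card_insert_of_notMem]
          rw [mem_filter, mem_range]
          omega
        omega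

/-- the count of the live gates -/
theorem count {a : ℕ → ι → ℂ} {L : ℕ} (ha : Chain a L) {S : Finset ι} (hS : 2 ≤ S.card)
    {κ : Type*} [Fintype κ] [Nonempty κ] (r : κ → ι → ℂ) (hr : ∀ k, Av a L (r k))
    (hfull : ∀ k l, r k l ≠ 0)
    (hnp : ∀ k k', k ≠ k' → ∃ i ∈ S, ∃ j ∈ S, r k i * r k' j ≠ r k j * r k' i) :
    Fintype.card κ + S.card ≤ NN a L S + 2 := by
  classical
  have hne : S.Nonempty := card_pos.1 (by omega)
  have hg : ∀ k, ∃ s < L, ¬ Dead a S s ∧ ∃ c : ℂ, c ≠ 0 ∧ ∀ i ∈ S, r k i = c * a s i := by
    intro k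
    obtain ⟨c, h | ⟨s, hs, h1, h2⟩⟩ := reduce hne L (r k) (hr k)
    · exfalso
      obtain ⟨l, hl, h⟩ := h
      obtain ⟨i, hi, hil⟩ := exists_mem_ne (by omega : 1 < S.card) l
      have := h i hi
      rw [Pi.single_eq_of_ne hil, mul_zero] at this
      exact hfull k i this
    · refine ⟨s, hs, h1, c, ?_, h2⟩
      rintro rfl
      obtain ⟨i, hi⟩ := hne
      exact hfull k i (by rw [h2 i hi, zero_mul])
  choose s hs hsl c hc hrs using hg
  have hsfull : ∀ k, ∀ i ∈ S, a (s k) i ≠ 0 := by
    intro k i hi h
    exact hfull k i (by rw [hrs k i hi, h, mul_zero])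
  have hinj : Function.Injective s := by
    intro k k' h
    by_contra hkk
    obtain ⟨i, hi, j, hj, hij⟩ := hnp k k' hkk
    apply hij
    rw [hrs k i hi, hrs k' j hj, hrs k j hj, hrs k' i hi, h]
    ring
  -- full gates
  have h1 : Fintype.card κ ≤
      ((range L).filter fun t => ¬ Dead a S t ∧ ∀ i ∈ S, a t i ≠ 0).card := by
    rw [← card_univ, ← card_image_of_injective univ hinj]
    refine card_le_card ?_
    intro t ht
    obtain ⟨k, -, rfl⟩ := mem_image.1 ht
    rw [mem_filter, mem_range]
    exact ⟨hs k, hsl k, hsfull k⟩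
  -- the other gates
  have hex : ∃ t, t < L ∧ ∀ i ∈ S, a t i ≠ 0 := by
    obtain ⟨k⟩ := (inferInstance : Nonempty κ)
    exact ⟨s k, hs k, hsfull k⟩
  obtain ⟨t, ⟨htL, htf⟩, htmin⟩ : ∃ t, (t < L ∧ ∀ i ∈ S, a t i ≠ 0) ∧
      ∀ s' < t, ¬ (s' < L ∧ ∀ i ∈ S, a s' i ≠ 0) :=
    ⟨Nat.find hex, Nat.find_spec hex, fun s hs => Nat.find_min hex hs⟩
  have h2 : S.card ≤ 2 +
      ((range L).filter fun t => ¬ Dead a S t ∧ ¬ ∀ i ∈ S, a t i ≠ 0).card := by
    obtain ⟨col, h3, h4⟩ := colors ha S (t + 1) htL
    have h5 : (S.image col).card ≤ 1 := by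
      rw [card_le_one]
      intro b hb b' hb'
      obtain ⟨i, hi, rfl⟩ := mem_image.1 hb
      obtain ⟨j, hj, rfl⟩ := mem_image.1 hb'
      exact h3 (a t) (Or.inr (Or.inr ⟨t, by omega, rfl⟩)) i hi j hj (htf i hi) (htf j hj)
    have h6 : NN a (t + 1) S ≤
        1 + ((range L).filter fun t => ¬ Dead a S t ∧ ¬ ∀ i ∈ S, a t i ≠ 0).card := by
      unfold NN
      have h7 : (range (t + 1)).filter (fun t => ¬ Dead a S t) ⊆
          insert t ((range L).filter fun t => ¬ Dead a S t ∧ ¬ ∀ i ∈ S, a t i ≠ 0) := by
        intro x hx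
        rw [mem_filter, mem_range] at hx
        rw [mem_insert]
        rcases Nat.lt_succ_iff_lt_or_eq.1 hx.1 with h8 | h8
        · right
          rw [mem_filter, mem_range]
          exact ⟨by omega, hx.2, fun h9 => htmin x h8 ⟨by omega, h9⟩⟩
        · exact Or.inl h8
      refine (card_le_card h7).trans ((card_insert_le _ _).trans ?_)
      omega
    omega
  have h3 : NN a L S = ((range L).filter fun t => ¬ Dead a S t ∧ ∀ i ∈ S, a t i ≠ 0).card +
      ((range L).filter fun t => ¬ Dead a S t ∧ ¬ ∀ i ∈ S, a t i ≠ 0).card := by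
    unfold NN
    rw [← filter_filter, ← filter_filter]
    exact (card_filter_add_card_filter_not _).symm
  omega

end Vale.Agent.LinCirc
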