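import Vale.Agent.LinCirc.Count

/-!
# P344: linear circuits for the discrete Fourier transform, the lower bound
-/

namespace Vale.Agent.LinCirc

open Finset

/-- The function `u` of the input `x` is available before gate number `t`: it is the constant
`0`, an input `x_i`, or the value of an earlier gate. -/
def Avail (n : ℕ) (g : ℕ → (Fin n → ℂ) → ℂ) (t : ℕ) (u : (Fin n → ℂ) → ℂ) : Prop :=
  (u = fun _ => 0) ∨ (∃ i : Fin n, u = fun x => x i) ∨ ∃ s, s < t ∧ u = g s

/-- `g 0, …, g (L - 1)` are the values (as functions of the input) of the gates of a linear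
circuit with `L` gates, each gate being `u + v`, `u - v` or `c * u`. -/
def IsCircuit (n L : ℕ) (g : ℕ → (Fin n → ℂ) → ℂ) : Prop :=
  ∀ t, t < L → ∃ u v : (Fin n → ℂ) → ℂ, Avail n g t u ∧ Avail n g t v ∧
    ((g t = fun x => u x + v x) ∨ (g t = fun x => u x - v x) ∨ ∃ c : ℂ, g t = fun x => c * u x)

/-- The same with more powerful gates: every gate is a linear combination `α u + β v`. -/
def IsGenCircuit (n L : ℕ) (g : ℕ → (Fin n → ℂ) → ℂ) : Prop :=
  ∀ t, t < L → ∃ u v : (Fin n → ℂ) → ℂ, Avail n g t u ∧ Avail n g t v ∧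
    ∃ α β : ℂ, g t = fun x => α * u x + β * v x

/-- The `k`-th output `∑ j, ζ^(k j) x_j`, `ζ = exp (2 π i / n)`, of the transform `F_n`. -/
noncomputable def dft (n : ℕ) (k : Fin n) (x : Fin n → ℂ) : ℂ :=
  ∑ j : Fin n, Complex.exp (2 * Real.pi * Complex.I / n) ^ ((k : ℕ) * (j : ℕ)) * x j

theorem IsCircuit.gen {n L : ℕ} {g : ℕ → (Fin n → ℂ) → ℂ} (h : IsCircuit n L g) :
    IsGenCircuit n L g := by
  intro t ht
  obtain ⟨u, v, hu, hv, h1 | h1 | ⟨c, h1⟩⟩ := h t ht
  · exact ⟨u, v, hu, hv, 1, 1, by rw [h1]; funext x; ring⟩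
  · exact ⟨u, v, hu, hv, 1, -1, by rw [h1]; funext x; ring⟩
  · exact ⟨u, v, hu, hv, c, 0, by rw [h1]; funext x; ring⟩

/-- the coefficient vector of a function -/
def coef {n : ℕ} (u : (Fin n → ℂ) → ℂ) : Fin n → ℂ := fun i => u (Pi.single i 1)

theorem avail_av {n : ℕ} {g : ℕ → (Fin n → ℂ) → ℂ} {t : ℕ} {u : (Fin n → ℂ) → ℂ}
    (h : Avail n g t u) : Av (fun s => coef (g s)) t (coef u) := by
  rcases h with rfl | ⟨i, rfl⟩ | ⟨s, hs, rfl⟩
  · exact Or.inl rfl
  · right
    left
    refine ⟨i, ?_⟩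
    funext j
    unfold coef
    simp only
    rw [Pi.single_apply, Pi.single_apply]
    simp only [eq_comm]
  · exact Or.inr (Or.inr ⟨s, hs, rfl⟩)

theorem coef_dft {n : ℕ} (k i : Fin n) :
    coef (dft n k) i = Complex.exp (2 * Real.pi * Complex.I / n) ^ ((k : ℕ) * (i : ℕ)) := by
  unfold coef dft
  rw [sum_eq_single i]
  · simp
  · intro j _ hj
    rw [Pi.single_eq_of_ne hj, mul_zero]
  · intro h
    exact absurd (mem_univ _) h

/-- the solutions of `m x = 0` -/
theorem card_ann {n : ℕ} (hn : 2 ≤ n) (T : Finset (ZMod n)) (m : ZMod n) (hm : m ≠ 0)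
    (hT : ∀ x ∈ T, m * x = 0) : T.card ≤ n / n.minFac := by
  classical
  have : NeZero n := ⟨by omega⟩
  set H : AddSubgroup (ZMod n) := (AddMonoidHom.mulLeft m).ker with hH
  have h1 : T.card ≤ Nat.card H := by
    have h0 : (T : Set (ZMod n)) ⊆ (H : Set (ZMod n)) := by
      intro x hx
      change x ∈ H
      rw [hH, AddMonoidHom.mem_ker]
      exact hT x hx
    have h := Set.ncard_le_ncard h0 (Set.toFinite _)
    rw [Set.ncard_coe_finset] at h
    exact h
  have h2 : Nat.card H ∣ n := by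
    have := AddSubgroup.card_addSubgroup_dvd_card H
    rwa [Nat.card_zmod] at this
  have h3 : Nat.card H ≠ n := by
    intro h
    have h4 : H = ⊤ := by
      apply AddSubgroup.eq_top_of_card_eq
      rw [h, Nat.card_zmod]
    have h5 : (1 : ZMod n) ∈ H := by rw [h4]; exact AddSubgroup.mem_top _
    rw [hH, AddMonoidHom.mem_ker] at h5
    apply hm
    have : m * 1 = 0 := h5
    rwa [mul_one] at this
  obtain ⟨q, hq⟩ := h2
  have hc0 : 0 < Nat.card H := Nat.card_pos
  have hq2 : 2 ≤ q := by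
    rcases q with _ | _ | q
    · omega
    · rw [zero_add, mul_one] at hq
      exact absurd hq.symm h3
    · omega
  have hmin : n.minFac ≤ q := Nat.minFac_le_of_dvd hq2 ⟨Nat.card H, hq.trans (Nat.mul_comm _ _)⟩
  have h6 : Nat.card H = n / q := by
    conv_rhs => rw [hq]
    rw [Nat.mul_div_cancel _ (by omega)]
  rw [h6] at h1
  exact h1.trans (Nat.div_le_div_left hmin (Nat.minFac_pos n))

/-- the lower bound for circuits with arbitrary binary linear gates -/
theorem lower {n L : ℕ} (hn : 2 ≤ n) {g : ℕ → (Fin n → ℂ) → ℂ} (hg : IsGenCircuit n L g)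
    (hout : ∀ k, Avail n g L (dft n k)) : 3 * n ≤ L + n / n.minFac + 3 := by
  classical
  have : NeZero n := ⟨by omega⟩
  obtain ⟨ζ, hζ⟩ : ∃ ζ, ζ = Complex.exp (2 * Real.pi * Complex.I / n) := ⟨_, rfl⟩
  have hprim : IsPrimitiveRoot ζ n := by
    rw [hζ]
    exact Complex.isPrimitiveRoot_exp n (by omega)
  have hζ0 : ζ ≠ 0 := hprim.ne_zero (by omega)
  have hcoef : ∀ k i : Fin n, coef (dft n k) i = ζ ^ ((k : ℕ) * (i : ℕ)) := by
    intro k i
    rw [coef_dft, hζ]
  have hchain : Chain (fun s => coef (g s)) L := by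
    intro t ht
    obtain ⟨u, v, hu, hv, α, β, h1⟩ := hg t ht
    refine ⟨coef u, coef v, α, β, avail_av hu, avail_av hv, ?_⟩
    funext i
    simp only [coef, h1]
  have hpow0 : ∀ a b : ℕ, a ≤ b → ζ ^ a = ζ ^ b → ((a : ℕ) : ZMod n) = b := by
    intro a b hab h
    rw [ZMod.natCast_eq_natCast_iff, Nat.modEq_iff_dvd' hab]
    apply (hprim.pow_eq_one_iff_dvd (b - a)).1
    have h1 : ζ ^ a * ζ ^ (b - a) = ζ ^ a * 1 := by
      rw [← pow_add, Nat.add_sub_cancel' hab, mul_one, h]
    exact mul_left_cancel₀ (pow_ne_zero a hζ0) h1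
  have hpow : ∀ a b : ℕ, ζ ^ a = ζ ^ b → ((a : ℕ) : ZMod n) = b := by
    intro a b h
    rcases le_total a b with hab | hab
    · exact hpow0 a b hab h
    · exact (hpow0 b a hab h.symm).symm
  have hfull : ∀ k l : Fin n, coef (dft n k) l ≠ 0 := by
    intro k l
    rw [hcoef]
    exact pow_ne_zero _ hζ0
  have hfin : ∀ i j : Fin n, ((i : ℕ) : ZMod n) = ((j : ℕ) : ZMod n) → i = j := by
    intro i j h
    rw [ZMod.natCast_eq_natCast_iff] at h
    exact Fin.ext (Nat.ModEq.eq_of_lt_of_lt h i.2 j.2)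
  have ho : ∀ i j : Fin n, i ≠ j → ∀ p q : ℂ, p ≠ 0 → q ≠ 0 →
      ∃ r, Av (fun s => coef (g s)) L r ∧ (∀ l, r l ≠ 0) ∧ r i * q ≠ r j * p := by
    intro i j hij p q hp hq
    by_cases hpq : q = p
    · refine ⟨coef (dft n ⟨1, by omega⟩), avail_av (hout _), hfull _, ?_⟩
      rw [hcoef, hcoef, hpq]
      intro h
      have h1 := mul_right_cancel₀ hp h
      have h2 := hpow _ _ h1
      apply hij
      apply hfin
      simpa using h2
    · refine ⟨coef (dft n ⟨0, by omega⟩), avail_av (hout _), hfull _, ?_⟩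
      rw [hcoef, hcoef]
      simpa using hpq
  have hdiv : n / n.minFac + 1 ≤ n := by
    have : n / n.minFac < n := Nat.div_lt_self (by omega) (Nat.minFac_prime (by omega)).one_lt
    omega
  have hdiv1 : 1 ≤ n / n.minFac := Nat.div_pos (Nat.minFac_le (by omega)) (Nat.minFac_pos n)
  obtain ⟨S, hS1, hS2⟩ := elim_iter hchain ho (n - (n / n.minFac + 1))
    (by rw [Fintype.card_fin]; omega)
  rw [Fintype.card_fin] at hS1
  have hScard : S.card = n / n.minFac + 1 := by omega
  have : Nonempty (Fin n) := ⟨⟨0, by omega⟩⟩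
  have h1 := count hchain (S := S) (by omega) (fun k : Fin n => coef (dft n k))
    (fun k => avail_av (hout k)) hfull (by
      intro k k' hkk
      by_contra hcon
      push Not at hcon
      obtain ⟨i0, hi0⟩ : S.Nonempty := card_pos.1 (by omega)
      have h2 : (S.image fun i : Fin n => ((i : ℕ) : ZMod n) - ((i0 : ℕ) : ZMod n)).card
          ≤ n / n.minFac := by
        refine card_ann hn _ (((k : ℕ) : ZMod n) - ((k' : ℕ) : ZMod n)) ?_ ?_
        · intro h
          exact hkk (hfin _ _ (sub_eq_zero.1 h))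
        · intro x hx
          obtain ⟨i, hi, rfl⟩ := mem_image.1 hx
          have h3 := hcon i hi i0 hi0
          rw [hcoef, hcoef, hcoef, hcoef, ← pow_add, ← pow_add] at h3
          have h4 := hpow _ _ h3
          push_cast at h4
          linear_combination h4
      rw [card_image_of_injective] at h2
      · omega
      · intro i j h
        exact hfin _ _ (sub_left_injective h))
  rw [Fintype.card_fin] at h1
  omega

end Vale.Agent.LinCirc
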