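import Vale.Agent.LinCirc.DFT

/-!
# P344: the gate count `L(n)` is attained by a circuit
-/

namespace Vale.Agent.LinCirc

open Finset

/-- `L(n)`: the least number of gates of a linear circuit which computes `F_n`. -/
noncomputable def gateCount (n : ℕ) : ℕ :=
  sInf {L : ℕ | ∃ g : ℕ → (Fin n → ℂ) → ℂ, IsCircuit n L g ∧ ∀ k : Fin n, Avail n g L (dft n k)}

theorem avail_mono {n : ℕ} {g g' : ℕ → (Fin n → ℂ) → ℂ} {t t' : ℕ} (htt : t ≤ t')
    (hg : ∀ s < t, g' s = g s) {u : (Fin n → ℂ) → ℂ} (h : Avail n g t u) :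
    Avail n g' t' u := by
  rcases h with h | h | ⟨s, hs, h⟩
  · exact Or.inl h
  · exact Or.inr (Or.inl h)
  · exact Or.inr (Or.inr ⟨s, by omega, by rw [hg s hs]; exact h⟩)

/-- adding one gate -/
theorem extend {n L : ℕ} {g : ℕ → (Fin n → ℂ) → ℂ} (hg : IsCircuit n L g)
    {u v w : (Fin n → ℂ) → ℂ} (hu : Avail n g L u) (hv : Avail n g L v)
    (hw : (w = fun x => u x + v x) ∨ (w = fun x => u x - v x) ∨ ∃ c : ℂ, w = fun x => c * u x) :
    ∃ g', IsCircuit n (L + 1) g' ∧ (∀ z, Avail n g L z → Avail n g' (L + 1) z) ∧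
      Avail n g' (L + 1) w := by
  classical
  refine ⟨fun s => if s = L then w else g s, ?_, ?_, ?_⟩
  · intro t ht
    have hlt : ∀ s < t, (if s = L then w else g s) = g s := by
      intro s hs
      rw [if_neg (by omega)]
    by_cases htL : t = L
    · subst htL
      refine ⟨u, v, avail_mono le_rfl hlt hu, avail_mono le_rfl hlt hv, ?_⟩
      simpa using hw
    · obtain ⟨u', v', hu', hv', h⟩ := hg t (by omega)
      refine ⟨u', v', avail_mono le_rfl hlt hu', avail_mono le_rfl hlt hv', ?_⟩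
      simpa [htL] using h
  · intro z hz
    refine avail_mono (by omega) (fun s hs => ?_) hz
    rw [if_neg (by omega)]
  · exact Or.inr (Or.inr ⟨L, by omega, by simp⟩)

theorem exists_form {n : ℕ} (c : Fin n → ℂ) (s : Finset (Fin n)) :
    ∀ (L : ℕ) (g : ℕ → (Fin n → ℂ) → ℂ), IsCircuit n L g →
      ∃ L' g', IsCircuit n L' g' ∧ (∀ z, Avail n g L z → Avail n g' L' z) ∧
        Avail n g' L' (fun x => ∑ i ∈ s, c i * x i) := by
  classical
  induction s using Finset.induction_on with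
  | empty =>
    intro L g hg
    exact ⟨L, g, hg, fun _ h => h, Or.inl (by simp)⟩
  | insert a s ha ih =>
    intro L g hg
    obtain ⟨L1, g1, h1, h2, h3⟩ := ih L g hg
    obtain ⟨g2, h4, h5, h6⟩ := extend h1 (u := fun x => x a) (v := fun x => x a)
      (w := fun x => c a * x a) (Or.inr (Or.inl ⟨a, rfl⟩)) (Or.inr (Or.inl ⟨a, rfl⟩))
      (Or.inr (Or.inr ⟨c a, rfl⟩))
    obtain ⟨g3, h7, h8, h9⟩ := extend h4 h6 (h5 _ h3)
      (w := fun x => c a * x a + ∑ i ∈ s, c i * x i) (Or.inl rfl)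
    refine ⟨_, g3, h7, fun z hz => h8 z (h5 z (h2 z hz)), ?_⟩
    simpa only [sum_insert ha] using h9

theorem exists_circuit (n : ℕ) : ∃ L, ∃ g : ℕ → (Fin n → ℂ) → ℂ, IsCircuit n L g ∧
    ∀ k : Fin n, Avail n g L (dft n k) := by
  classical
  have h : ∀ s : Finset (Fin n), ∃ L, ∃ g : ℕ → (Fin n → ℂ) → ℂ, IsCircuit n L g ∧
      ∀ k ∈ s, Avail n g L (dft n k) := by
    intro s
    induction s using Finset.induction_on with
    | empty => exact ⟨0, fun _ _ => 0, fun t ht => by omega, fun k hk => by simp at hk⟩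
    | insert a s ha ih =>
      obtain ⟨L, g, h1, h2⟩ := ih
      obtain ⟨L', g', h3, h4, h5⟩ := exists_form
        (fun j : Fin n => Complex.exp (2 * Real.pi * Complex.I / n) ^ ((a : ℕ) * (j : ℕ)))
        univ L g h1
      refine ⟨L', g', h3, fun k hk => ?_⟩
      rcases mem_insert.1 hk with rfl | hk
      · exact h5
      · exact h4 _ (h2 k hk)
  obtain ⟨L, g, h1, h2⟩ := h univ
  exact ⟨L, g, h1, fun k => h2 k (mem_univ k)⟩

theorem gateCount_spec (n : ℕ) : ∃ g : ℕ → (Fin n → ℂ) → ℂ, IsCircuit n (gateCount n) g ∧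
    ∀ k : Fin n, Avail n g (gateCount n) (dft n k) :=
  Nat.sInf_mem (exists_circuit n)

end Vale.Agent.LinCirc
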